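import Crest.Agent.R106.Top
import Crest.Agent.R106.A.Boot
import Crest.Agent.R106.A.Imp
import Crest.Agent.R106.A.PairX
import Crest.Agent.R106.A.Sum

/-! Row 106: everything from the pass count. -/

set_option autoImplicit false

namespace Crest.Agent.R106

theorem s_ap_of_pass (h : A.S_PASS) : S_AP :=
  s_ap_of (A.s_apl_of_imp (A.imp_of A.s_force A.s_pair (A.s_sum_of h)))

end Crest.Agent.R106
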