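/-
R106/Liou (helper3): Liouville's theorem for smooth flows, and the two-parameter smooth flow of a
time dependent smooth field with bounded derivative.
-/
import Crest.Agent.R203.AFlow
import Crest.Agent.R72.Deriv

set_option autoImplicit false
set_option linter.unusedSectionVars false
set_option linter.unusedVariables false

open Set Filter Topology MeasureTheory
open scoped ContDiff

noncomputable section

namespace Crest.Agent.R106.Liou

variable {B : Type} [NormedAddCommGroup B] [NormedSpace ℝ B] [FiniteDimensional ℝ B]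

/-- Jacobi's formula for a path of operators solving `A' = M A`. -/
theorem hasDerivAt_det_clm {A : ℝ → (B →L[ℝ] B)} {M : B →L[ℝ] B} {t : ℝ}
    (h : HasDerivAt A (M ∘L A t) t) :
    HasDerivAt (fun s => (A s).det) (LinearMap.trace ℝ B (M : B →ₗ[ℝ] B) * (A t).det) t := by
  classical
  let b := Module.finBasis ℝ B
  let X : ℝ → Matrix (Fin (Module.finrank ℝ B)) (Fin (Module.finrank ℝ B)) ℝ :=
    fun s => LinearMap.toMatrix b b (A s : B →ₗ[ℝ] B)
  let N := LinearMap.toMatrix b b (M : B →ₗ[ℝ] B)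
  have hX : ∀ i j, HasDerivAt (fun s => X s i j) ((N * X t) i j) t := fun i j => by
    have h1 : HasDerivAt (fun s => A s (b j)) ((M ∘L A t) (b j)) t := by
      simpa using h.clm_apply (hasDerivAt_const t (b j))
    have h2 := (LinearMap.toContinuousLinearMap (b.coord i)).hasFDerivAt.comp_hasDerivAt t h1
    have e : N * X t = LinearMap.toMatrix b b ((M ∘L A t : B →L[ℝ] B) : B →ₗ[ℝ] B) := by
      simp only [N, X]
      rw [← LinearMap.toMatrix_comp]
      rfl
    rw [e]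
    simpa [X, LinearMap.toMatrix_apply, Function.comp_def] using h2
  have h3 := R72.hasDerivAt_det hX
  have e1 : ∀ s, (X s).det = (A s).det := fun s => LinearMap.det_toMatrix b _
  have e2 : (Matrix.adjugate (X t) * (N * X t)).trace
      = LinearMap.trace ℝ B (M : B →ₗ[ℝ] B) * (A t).det := by
    rw [Matrix.trace_mul_comm, Matrix.mul_assoc, Matrix.mul_adjugate, Matrix.mul_smul, Matrix.mul_one,
      Matrix.trace_smul, LinearMap.trace_eq_matrix_trace ℝ b, e1, smul_eq_mul, mul_comm]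
  rw [e2] at h3
  simpa only [e1] using h3

/-- The variational equation of a `C²` family of trajectories. -/
theorem hasDerivAt_fderiv_flow {V Φ : ℝ × B → B} (hΦ : ContDiff ℝ 2 Φ) {t : ℝ} (x : B)
    (hV : DifferentiableAt ℝ (fun z => V (t, z)) (Φ (t, x)))
    (hd : ∀ y, HasDerivAt (fun s => Φ (s, y)) (V (t, Φ (t, y))) t) :
    HasDerivAt (fun s => fderiv ℝ (fun y => Φ (s, y)) x)
      (fderiv ℝ (fun z => V (t, z)) (Φ (t, x)) ∘L fderiv ℝ (fun y => Φ (t, y)) x) t := by
  have h1 : Differentiable ℝ Φ := hΦ.differentiable (by simp)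
  have h2 : Differentiable ℝ (fderiv ℝ Φ) :=
    (hΦ.fderiv_right (m := 1) (by norm_num)).differentiable (by simp)
  have hs : ∀ s y, HasFDerivAt (fun y => Φ (s, y))
      (fderiv ℝ Φ (s, y) ∘L ContinuousLinearMap.inr ℝ ℝ B) y := fun s y =>
    (h1 (s, y)).hasFDerivAt.comp y (hasFDerivAt_prodMk_right s y)
  have ht : ∀ y, fderiv ℝ Φ (t, y) (1, 0) = V (t, Φ (t, y)) := fun y => by
    have := (h1 (t, y)).hasFDerivAt.comp_hasDerivAt t
      ((hasDerivAt_id t).prodMk (hasDerivAt_const t y))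
    exact this.unique (hd y)
  have hsym := (hΦ.contDiffAt (x := (t, x))).isSymmSndFDerivAt (by simp)
  have h3 : HasDerivAt (fun s => fderiv ℝ Φ (s, x)) (fderiv ℝ (fderiv ℝ Φ) (t, x) (1, 0)) t :=
    (h2 (t, x)).hasFDerivAt.comp_hasDerivAt t ((hasDerivAt_id t).prodMk (hasDerivAt_const t x))
  have h4 : HasDerivAt (fun s => fderiv ℝ Φ (s, x) ∘L ContinuousLinearMap.inr ℝ ℝ B)
      (fderiv ℝ (fderiv ℝ Φ) (t, x) (1, 0) ∘L ContinuousLinearMap.inr ℝ ℝ B) t := by
    simpa using h3.clm_comp (hasDerivAt_const t (ContinuousLinearMap.inr ℝ ℝ B))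
  have h5 : HasFDerivAt (fun y => fderiv ℝ Φ (t, y) (1, 0))
      ((ContinuousLinearMap.apply ℝ B ((1, 0) : ℝ × B)) ∘L
        (fderiv ℝ (fderiv ℝ Φ) (t, x) ∘L ContinuousLinearMap.inr ℝ ℝ B)) x :=
    (ContinuousLinearMap.apply ℝ B ((1, 0) : ℝ × B)).hasFDerivAt.comp x
      ((h2 (t, x)).hasFDerivAt.comp x (hasFDerivAt_prodMk_right t x))
  have h6 : HasFDerivAt (fun y => V (t, Φ (t, y)))
      (fderiv ℝ (fun z => V (t, z)) (Φ (t, x)) ∘L fderiv ℝ (fun y => Φ (t, y)) x) x :=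
    HasFDerivAt.comp (g := fun z => V (t, z)) (f := fun y => Φ (t, y)) x hV.hasFDerivAt
      (hs t x).differentiableAt.hasFDerivAt
  simp only [ht] at h5
  rw [← h5.unique h6]
  simp only [fun s => (hs s x).fderiv]
  convert h4 using 1
  ext h
  simpa using (hsym (0, h) (1, 0))

/-- The Jacobian determinant of the flow of a divergence free field is `1`. -/
theorem det_flow {V Φ : ℝ × B → B} (hΦ : ContDiff ℝ 2 Φ) {t₀ t₁ : ℝ} (h0 : ∀ x, Φ (t₀, x) = x)
    (hV : ∀ t ∈ uIcc t₀ t₁, Differentiable ℝ (fun z => V (t, z)))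
    (hd : ∀ t ∈ uIcc t₀ t₁, ∀ y, HasDerivAt (fun s => Φ (s, y)) (V (t, Φ (t, y))) t)
    (hdiv : ∀ t ∈ uIcc t₀ t₁, ∀ z,
      LinearMap.trace ℝ B (fderiv ℝ (fun z => V (t, z)) z : B →ₗ[ℝ] B) = 0) (x : B) :
    (fderiv ℝ (fun y => Φ (t₁, y)) x).det = 1 := by
  have h1 : ∀ t ∈ uIcc t₀ t₁,
      HasDerivAt (fun s => (fderiv ℝ (fun y => Φ (s, y)) x).det) ((fun _ => (0 : ℝ)) t) t := fun t ht => by
    have := hasDerivAt_det_clm (hasDerivAt_fderiv_flow hΦ x (hV t ht _) (hd t ht))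
    rwa [hdiv t ht, zero_mul] at this
  have h2 := intervalIntegral.integral_eq_sub_of_hasDerivAt h1 (by simp)
  have h3 : (fderiv ℝ (fun y => Φ (t₀, y)) x).det = 1 := by
    simp only [h0]
    rw [fderiv_fun_id]
    exact LinearMap.det_id
  simp only [intervalIntegral.integral_zero] at h2
  linarith

variable [MeasurableSpace B] [BorelSpace B]

theorem measurePreserving_of_det (μ : Measure B) [μ.IsAddHaarMeasure] {F : B → B}
    (hF : Differentiable ℝ F) (hb : Function.Bijective F) (hdet : ∀ x, (fderiv ℝ F x).det = 1) :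
    MeasurePreserving F μ μ := by
  refine ⟨hF.continuous.measurable, ?_⟩
  have := map_withDensity_abs_det_fderiv_eq_addHaar μ (s := univ) (f := F) (f' := fderiv ℝ F)
    MeasurableSet.univ.nullMeasurableSet (fun x _ => (hF x).hasFDerivAt.hasFDerivWithinAt)
    hb.1.injOn
  simpa [hdet, hb.2.range_eq] using this

/-- Liouville's theorem. -/
theorem measurePreserving_flow (μ : Measure B) [μ.IsAddHaarMeasure] {V Φ : ℝ × B → B}
    (hΦ : ContDiff ℝ 2 Φ) {t₀ t₁ : ℝ} (h0 : ∀ x, Φ (t₀, x) = x)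
    (hV : ∀ t ∈ uIcc t₀ t₁, Differentiable ℝ (fun z => V (t, z)))
    (hd : ∀ t ∈ uIcc t₀ t₁, ∀ y, HasDerivAt (fun s => Φ (s, y)) (V (t, Φ (t, y))) t)
    (hdiv : ∀ t ∈ uIcc t₀ t₁, ∀ z,
      LinearMap.trace ℝ B (fderiv ℝ (fun z => V (t, z)) z : B →ₗ[ℝ] B) = 0)
    (hb : Function.Bijective (fun y => Φ (t₁, y))) :
    MeasurePreserving (fun y => Φ (t₁, y)) μ μ :=
  measurePreserving_of_det μ
    ((hΦ.differentiable (by simp)).comp ((differentiable_const t₁).prodMk differentiable_id)) hb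
    (det_flow hΦ h0 hV hd hdiv)

omit [MeasurableSpace B] [BorelSpace B] in
/-- Two-parameter flow: `X (s, t, z)` is the position at time `s` of the trajectory through `z` at time `t`. -/
theorem exists_flow {V : ℝ × B → B} (hV : ContDiff ℝ ∞ V) {K : ℝ} (hK : ∀ p, ‖fderiv ℝ V p‖ ≤ K) :
    ∃ X : ℝ × ℝ × B → B, ContDiff ℝ ∞ X ∧ (∀ t z, X (t, t, z) = z) ∧
      (∀ s t z, HasDerivAt (fun r => X (r, t, z)) (V (s, X (s, t, z))) s) ∧
      (∀ s r t z, X (s, r, X (r, t, z)) = X (s, t, z)) ∧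
      ∀ (γ : ℝ → B), (∀ s, HasDerivAt γ (V (s, γ s)) s) → ∀ s t, γ s = X (s, t, γ t) := by
  let W : ℝ × B → ℝ × B := fun p => (1, V p)
  have hW : ContDiff ℝ ∞ W := contDiff_const.prodMk hV
  have hWK : ∀ p, ‖fderiv ℝ W p‖ ≤ K := fun p => by
    have h1 : HasFDerivAt W ((0 : ℝ × B →L[ℝ] ℝ).prod (fderiv ℝ V p)) p :=
      (hasFDerivAt_const 1 p).prodMk (hV.differentiable (by simp) p).hasFDerivAt
    rw [h1.fderiv, ContinuousLinearMap.opNorm_prod]
    simpa using hK p
  obtain ⟨Φ, hΦ, h0, hd, -⟩ := R203.exists_smooth_flow hW hWK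
  have hfst : ∀ s p, (Φ (s, p)).1 = s + p.1 := fun s p => by
    have h1 : ∀ r ∈ uIcc (0 : ℝ) s, HasDerivAt (fun s => (Φ (s, p)).1) ((fun _ => (1 : ℝ)) r) r :=
      fun r _ => (hd r p).fst
    have h2 := intervalIntegral.integral_eq_sub_of_hasDerivAt h1 (by simp)
    simp only [intervalIntegral.integral_const, h0, smul_eq_mul] at h2
    linarith
  let X : ℝ × ℝ × B → B := fun q => (Φ (q.1 - q.2.1, q.2)).2
  have hX0 : ∀ t z, X (t, t, z) = z := fun t z => by simp [X, h0]
  have hXd : ∀ s t z, HasDerivAt (fun r => X (r, t, z)) (V (s, X (s, t, z))) s := fun s t z => by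
    have h2 : HasDerivAt (fun r => (Φ (r, (t, z))).2) (W (Φ (s - t, (t, z)))).2 (s - t) :=
      (ContinuousLinearMap.snd ℝ ℝ B).hasFDerivAt.comp_hasDerivAt (s - t) (hd (s - t) (t, z))
    have h1 := h2.comp_sub_const s t
    have e : Φ (s - t, (t, z)) = (s, X (s, t, z)) := Prod.ext (by simp [hfst]) rfl
    simpa [W, e] using h1
  have hL : LipschitzWith K.toNNReal V :=
    lipschitzWith_of_nnnorm_fderiv_le (hV.differentiable (by simp))
      fun x => by simpa [← NNReal.coe_le_coe] using Or.inl (hK x)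
  have hL' : ∀ t : ℝ, LipschitzOnWith K.toNNReal (fun z => V (t, z)) univ := fun t => by
    simpa [Function.comp_def] using (hL.comp (LipschitzWith.prodMk_left t)).lipschitzOnWith (s := univ)
  have huniq : ∀ (γ : ℝ → B), (∀ s, HasDerivAt γ (V (s, γ s)) s) → ∀ s t, γ s = X (s, t, γ t) :=
    fun γ hγ s t => congrFun (ODE_solution_unique_univ (v := fun t z => V (t, z)) (s := fun _ => univ)
      (t₀ := t) (g := fun r => X (r, t, γ t)) hL' (fun s => ⟨hγ s, trivial⟩)
      (fun s => ⟨hXd s t _, trivial⟩) (hX0 t _).symm) s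
  refine ⟨X, ?_, hX0, hXd, fun s r t z => (huniq _ (fun s => hXd s t z) s r).symm, huniq⟩
  exact (hΦ.comp ((contDiff_fst.sub contDiff_snd.fst).prodMk contDiff_snd)).snd

/-- Liouville's theorem for a two-parameter flow. -/
theorem measurePreserving_flow₂ (μ : Measure B) [μ.IsAddHaarMeasure] {V : ℝ × B → B}
    {X : ℝ × ℝ × B → B} (hV : Differentiable ℝ V) (hX : ContDiff ℝ 2 X) (h0 : ∀ t z, X (t, t, z) = z)
    (hd : ∀ s t z, HasDerivAt (fun r => X (r, t, z)) (V (s, X (s, t, z))) s)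
    (hg : ∀ s r t z, X (s, r, X (r, t, z)) = X (s, t, z)) {s t : ℝ}
    (hdiv : ∀ r ∈ uIcc t s, ∀ z,
      LinearMap.trace ℝ B (fderiv ℝ (fun z => V (r, z)) z : B →ₗ[ℝ] B) = 0) :
    MeasurePreserving (fun z => X (s, t, z)) μ μ :=
  measurePreserving_flow μ (V := V) (Φ := fun p => X (p.1, t, p.2))
    (hX.comp (contDiff_fst.prodMk (contDiff_const.prodMk contDiff_snd))) (t₀ := t) (t₁ := s) (h0 t)
    (fun r _ => hV.comp ((differentiable_const r).prodMk differentiable_id))
    (fun r _ y => hd r t y) hdiv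
    (Function.bijective_iff_has_inverse.2 ⟨fun z => X (t, s, z), fun z => by simp [hg, h0],
      fun z => by simp [hg, h0]⟩)

end Crest.Agent.R106.Liou
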