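import Crest.Agent.R106.Main
import Crest.Agent.R106.Flow.Main
import Crest.Agent.R106.TR.Main
import Crest.Agent.R106.HR.Main
import Crest.Agent.R106.GS.Main
import Crest.Agent.R106.CL.Main
import Crest.Agent.R106.U.Main
import Crest.Agent.R106.Rep.Main

/-! Row 106: everything except the a priori bound in the Lagrangian frame. -/

set_option autoImplicit false

namespace Crest.Agent.R106

theorem s_tr : S_TR := TR.s_tr_of (HR.s_conv GS.s_GS0 GS.s_LOG)

theorem s_uni : S_UNI := fun _ _ _ _ _ _ _ _ _ _ h h' => U.uni h h'

theorem s_ap_of (h : A.S_APL) : S_AP := Rep.s_frame s_cl h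

end Crest.Agent.R106
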